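import Vale.Agent.P075Tri.Main

/-!
Uniform boundedness of the dyadic triangular Hilbert form (question Q2 of P075).
-/

open MeasureTheory

namespace Vale.Agent.Results.P075.DyadicBound

open Vale.Agent.P075Tri

theorem result : ∃ C : ℝ, ∀ (S : Finset ℤ) (eps : ℤ → ℝ), (∀ k ∈ S, |eps k| ≤ 1) →
    ∀ F₀ F₁ F₂ : ℝ × ℝ → ℝ, Measurable F₀ → Measurable F₁ → Measurable F₂ →
      (∃ B, ∀ x, |F₀ x| ≤ B) → (∃ B, ∀ x, |F₁ x| ≤ B) → (∃ B, ∀ x, |F₂ x| ≤ B) →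
      HasCompactSupport F₀ → HasCompactSupport F₁ → HasCompactSupport F₂ →
      (∀ k : ℤ, Summable (fun t : Triples => |triForm k t F₀ F₁ F₂|)) ∧
      (∑ k ∈ S, ∑' t : Triples, |triForm k t F₀ F₁ F₂| ≤ C * norm3 F₀ * norm3 F₁ * norm3 F₂) ∧
      |form S eps F₀ F₁ F₂| ≤ C * norm3 F₀ * norm3 F₁ * norm3 F₂ :=
  ⟨192, fun S eps he _ _ _ m₀ m₁ m₂ b₀ b₁ b₂ c₀ c₁ c₂ =>
    ⟨triForm_summable c₀, abs_bound m₀ m₁ m₂ b₀ b₁ b₂ c₀ c₁ c₂ S,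
      form_bound m₀ m₁ m₂ b₀ b₁ b₂ c₀ c₁ c₂ S eps he⟩⟩

end Vale.Agent.Results.P075.DyadicBound
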